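import Mathlib.Algebra.Lie.OfAssociative
import Mathlib.Algebra.Module.ZLattice.Summable
import Mathlib.Algebra.Order.Archimedean.Real.Hom
import Mathlib.Algebra.Order.Chebyshev
import Mathlib.Algebra.Ring.IsFormallyReal
import Mathlib.Analysis.CStarAlgebra.Module.Constructions
import Mathlib.Analysis.Calculus.BumpFunction.Convolution
import Mathlib.Analysis.Calculus.Deriv.Pi
import Mathlib.Analysis.Calculus.FDeriv.Symmetric
import Mathlib.Analysis.Calculus.Rademacher
import Mathlib.Analysis.Fourier.AddCircleMulti
import Mathlib.Analysis.Fourier.FourierTransformDeriv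
import Mathlib.Analysis.InnerProductSpace.NormDet
import Mathlib.Analysis.InnerProductSpace.StarOrder
import Mathlib.Analysis.Normed.Group.Tannery
import Mathlib.Analysis.Normed.Lp.SmoothApprox
import Mathlib.Analysis.Normed.Module.Connected
import Mathlib.Analysis.Real.Pi.Bounds
import Mathlib.Analysis.SpecialFunctions.JapaneseBracket
import Mathlib.Geometry.Manifold.Instances.Real
import Mathlib.Geometry.Manifold.Sheaf.Basic
import Mathlib.LinearAlgebra.Matrix.Swap
import Mathlib.Order.CompletePartialOrder
import Mathlib.RingTheory.DedekindDomain.SInteger
import Mathlib.RingTheory.Etale.Weakly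
import Mathlib.RingTheory.Flat.TorsionFree
import Mathlib.RingTheory.PicardGroup
import Mathlib.RingTheory.RegularLocalRing.Defs
import Mathlib.RingTheory.SimpleRing.Principal
import Mathlib.RingTheory.TotallySplit
import Mathlib.Tactic
import Mathlib.Topology.Algebra.ProperAction.Basic
import Mathlib.Topology.Algebra.Star.Unitary
import Mathlib.Topology.Filter
import Mathlib.Topology.Order.LowerUpperTopology
import Mathlib.Topology.UniformSpace.Uniformizable

/-! The part of Mathlib that the development of this folder uses. -/
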